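import Vale.Agent.P022E.Top.Spec
import Vale.Agent.P022D.Top.Setup

/-!
P022E: the integral normal form of a representation with non solvable residual image.
-/

set_option linter.all false

open Matrix IsLocalRing

noncomputable section

namespace Vale.Agent.P022E.Dk

open Vale.Agent.P022 Vale.Agent.P022D.Dk Vale.Agent.P022D.Top Vale.Agent.P022E.Top

/-- in characteristic two a group on which the trace vanishes has commutative image -/
theorem tr_ne {G k : Type} [Group G] [Field k] [CharP k 2] (ρ : G →* GL (Fin 2) k)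
    (hn : ¬ Group.IsSolvable ρ.range) (n : ℕ) :
    ∃ g ∈ derivedSeries G n, (ρ g : Matrix (Fin 2) (Fin 2) k).trace ≠ 0 := by
  by_contra h
  push Not at h
  refine hn ⟨⟨n + 1, ?_⟩⟩
  rw [← map_derivedSeries_eq ρ.rangeRestrict_surjective, Subgroup.map_eq_bot_iff,
    MonoidHom.ker_rangeRestrict, derivedSeries_succ, Subgroup.commutator_le]
  intro g hg g' hg'
  rw [MonoidHom.mem_ker, map_commutatorElement, commutatorElement_eq_one_iff_mul_comm]
  have h1 := h g hg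
  have h2 := h g' hg'
  have h3 := h (g * g') (mul_mem hg hg')
  have two : (2 : k) = 0 := CharTwo.two_eq_zero
  rw [map_mul, Units.val_mul] at h3
  rw [Matrix.trace_fin_two] at h1 h2 h3
  simp only [Matrix.mul_apply, Fin.sum_univ_two] at h3
  apply Units.ext
  rw [Units.val_mul, Units.val_mul]
  generalize (ρ g : Matrix (Fin 2) (Fin 2) k) = A at h1 h3 ⊢
  generalize (ρ g' : Matrix (Fin 2) (Fin 2) k) = B at h2 h3 ⊢
  ext i j
  fin_cases i <;> fin_cases j <;> simp [Matrix.mul_apply, Fin.sum_univ_two]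
  · linear_combination h3 - B 1 1 * h1 - A 0 0 * h2 + (A 0 0 * B 1 1 - A 1 0 * B 0 1) * two
  · linear_combination B 0 1 * h1 + A 0 1 * h2 - (A 0 1 * B 0 0 + A 1 1 * B 0 1) * two
  · linear_combination B 1 0 * h1 + A 1 0 * h2 - (A 1 0 * B 1 1 + A 0 0 * B 1 0) * two
  · linear_combination h3 - B 1 1 * h1 - A 0 0 * h2 + (A 0 0 * B 1 1 - A 0 1 * B 1 0) * two

/-- a solvable image has trace zero on a term of the derived series -/
theorem not_solv {G k : Type} [Group G] [Field k] [CharP k 2] (ρ : G →* GL (Fin 2) k)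
    (h : ∀ n, ∃ g ∈ derivedSeries G n, (ρ g : Matrix (Fin 2) (Fin 2) k).trace ≠ 0) :
    ¬ Group.IsSolvable ρ.range := by
  rintro ⟨n, hn⟩
  rw [← map_derivedSeries_eq ρ.rangeRestrict_surjective, Subgroup.map_eq_bot_iff,
    MonoidHom.ker_rangeRestrict] at hn
  obtain ⟨g, hg, h1⟩ := h n
  rw [show ρ g = 1 from hn hg, Units.val_one, Matrix.trace_one] at h1
  exact h1 (by simpa using (CharTwo.two_eq_zero : (2 : k) = 0))

/-- the hypotheses in terms of traces -/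
structure TrB {E : Type} [NontriviallyNormedField E] (r : GQ →* GL (Fin 2) E) : Prop where
  tr : ∀ g, ‖(r g : Matrix (Fin 2) (Fin 2) E).trace‖ ≤ 1
  dt : ∀ g, ‖(r g : Matrix (Fin 2) (Fin 2) E).det‖ ≤ 1
  ns : NS r

theorem trB_of {E : Type} [NontriviallyNormedField E] [NormedAlgebra ℚ_[2] E]
    (r : GQ →* GL (Fin 2) E) {k : Type} [Field k] [CharP k 2] (ρ : GQ →* GL (Fin 2) k)
    (hr : St.IsRes r ρ) (hn : ¬ Group.IsSolvable ρ.range) : TrB r := by
  obtain ⟨O, π, hO, ht⟩ := hr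
  refine ⟨fun g => ?_, fun g => ?_, fun n => ?_⟩
  · obtain ⟨t, d, a, -, -, -⟩ := ht g
    rw [← a]
    exact (hO _).1 t.2
  · obtain ⟨t, d, -, a, -, -⟩ := ht g
    rw [← a]
    exact (hO _).1 d.2
  · obtain ⟨g, hg, h1⟩ := tr_ne ρ hn n
    obtain ⟨t, d, a, -, b, -⟩ := ht g
    refine ⟨g, hg, fun h3 => h1 ?_⟩
    rw [← a] at h3
    rw [← b, H315.Sv.pi_small O hO π t h3]

/-- scaling of the off diagonal entries -/
theorem scale4 {E : Type} [Field E] (b : E) (hb : b ≠ 0) :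
    ∃ D : GL (Fin 2) E, ∀ A : GL (Fin 2) E,
    ((D⁻¹ * A * D : GL (Fin 2) E) : Matrix (Fin 2) (Fin 2) E) =
      !![(A : Matrix (Fin 2) (Fin 2) E) 0 0, b⁻¹ * (A : Matrix (Fin 2) (Fin 2) E) 0 1;
        b * (A : Matrix (Fin 2) (Fin 2) E) 1 0, (A : Matrix (Fin 2) (Fin 2) E) 1 1] := by
  refine ⟨⟨!![b, 0; 0, 1], !![b⁻¹, 0; 0, 1], ?_, ?_⟩, fun A => ?_⟩
  · ext i j
    fin_cases i <;> fin_cases j <;> simp [Matrix.mul_apply, Fin.sum_univ_two, hb]
  · ext i j
    fin_cases i <;> fin_cases j <;> simp [Matrix.mul_apply, Fin.sum_univ_two, hb]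
  · ext i j
    fin_cases i <;> fin_cases j <;>
      simp [Matrix.mul_apply, Fin.sum_univ_two, Matrix.vecMul, dotProduct, mul_comm]
    field_simp

section

variable {E : Type} [NontriviallyNormedField E] {r : GQ →* GL (Fin 2) E}

theorem ns_cj (P : GL (Fin 2) E) (h : NS r) : NS (cj P r) := fun n => by
  simpa only [cj_trace] using h n

theorem spl_cj (P : GL (Fin 2) E) (h : Spl r) : Spl (cj P r) := fun g => by
  simpa only [cj_trace, cj_det] using h g

theorem TrB.cnj (h : TrB r) (P : GL (Fin 2) E) : TrB (cj P r) :=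
  ⟨fun g => by rw [cj_trace]; exact h.tr g, fun g => by rw [cj_det]; exact h.dt g, ns_cj P h.ns⟩

theorem TrB.ext (h : TrB r) (E' : Type) [NontriviallyNormedField E'] [NormedAlgebra E E'] :
    TrB (bc E' r) :=
  ⟨fun g => by rw [H20.bc_trace, norm_algebraMap']; exact h.tr g,
    fun g => by rw [H20.bc_det, norm_algebraMap']; exact h.dt g, h.ns.ext E'⟩

variable [IsUltrametricDist E]

theorem root_le {t d α : E} (ht : ‖t‖ ≤ 1) (hd : ‖d‖ ≤ 1) (hα : α ^ 2 - t * α + d = 0) :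
    ‖α‖ ≤ 1 := by
  by_contra hh
  rw [not_le] at hh
  have hα0 : α ≠ 0 := by
    rintro rfl
    rw [norm_zero] at hh
    linarith
  have hi : ‖α⁻¹‖ < 1 := by
    rw [norm_inv]
    exact inv_lt_one_of_one_lt₀ hh
  have e : (1 : E) = t * α⁻¹ - d * (α⁻¹ * α⁻¹) := by
    field_simp
    linear_combination hα
  have h5 := nlt (mlt ht hi) (mlt hd (mlt hi.le hi))
  rw [← e, norm_one] at h5
  exact lt_irrefl _ h5

/-- the diagonal entries when `r g₀` is diagonal -/
theorem dg_le (h : TrB r) {g₀ : GQ} {α β : E} (hα : ‖α‖ ≤ 1) (hβ : ‖β‖ ≤ 1) (hab : ‖α - β‖ = 1)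
    (h0 : (r g₀ : Matrix (Fin 2) (Fin 2) E) = !![α, 0; 0, β]) (g : GQ) :
    ‖(r g : Matrix (Fin 2) (Fin 2) E) 0 0‖ ≤ 1 ∧ ‖(r g : Matrix (Fin 2) (Fin 2) E) 1 1‖ ≤ 1 := by
  have e : (r (g₀ * g) : Matrix (Fin 2) (Fin 2) E).trace =
      α * (r g : Matrix (Fin 2) (Fin 2) E) 0 0 + β * (r g : Matrix (Fin 2) (Fin 2) E) 1 1 := by
    rw [map_mul, Units.val_mul, h0, Matrix.trace_fin_two]
    simp [Matrix.mul_apply, Fin.sum_univ_two]
  have e0 : ‖(r g : Matrix (Fin 2) (Fin 2) E) 0 0‖ =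
      ‖(r (g₀ * g) : Matrix (Fin 2) (Fin 2) E).trace -
        β * (r g : Matrix (Fin 2) (Fin 2) E).trace‖ := by
    rw [e, Matrix.trace_fin_two, ← one_mul ‖(r g : Matrix (Fin 2) (Fin 2) E) 0 0‖, ← hab,
      ← norm_mul]
    congr 1
    ring
  have e1 : ‖(r g : Matrix (Fin 2) (Fin 2) E) 1 1‖ =
      ‖α * (r g : Matrix (Fin 2) (Fin 2) E).trace -
        (r (g₀ * g) : Matrix (Fin 2) (Fin 2) E).trace‖ := by
    rw [e, Matrix.trace_fin_two, ← one_mul ‖(r g : Matrix (Fin 2) (Fin 2) E) 1 1‖, ← hab,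
      ← norm_mul]
    congr 1
    ring
  rw [e0, e1]
  exact ⟨nle (h.tr _) (mle hβ (h.tr _)), nle (mle hα (h.tr _)) (h.tr _)⟩

variable [NormedAlgebra ℚ_[2] E] [FiniteDimensional ℚ_[2] E]

/-- an almost multiplicative function is residually trivial on commutators -/
theorem near_one (a : GQ → E) (h0 : ∀ g, ‖a g‖ ≤ 1) (h1 : a 1 = 1)
    (h2 : ∀ g g', ‖a (g * g') - a g * a g'‖ < 1) {g : GQ} (hg : g ∈ derivedSeries GQ 1) :
    ‖a g - 1‖ < 1 := by
  let f : GQ →* ResidueField (Ob E) :=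
    { toFun := fun g => residue (Ob E) ⟨a g, mem_Ob.2 (h0 g)⟩
      map_one' := by
        rw [← map_one (residue (Ob E))]
        congr 1
        exact Subtype.ext h1
      map_mul' := fun g g' => by
        rw [← map_mul, ← sub_eq_zero, ← map_sub]
        exact res_Ob.2 (h2 g g') }
  rw [derivedSeries_one] at hg
  have h3 : f.toHomUnits g = 1 := Abelianization.commutator_subset_ker f.toHomUnits hg
  have h4 : residue (Ob E) (⟨a g, mem_Ob.2 (h0 g)⟩ - 1) = 0 := by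
    rw [map_sub, map_one, sub_eq_zero]
    exact congrArg Units.val h3
  exact res_Ob.1 h4

/-- the normal form from the traces, when an eigenvalue of a regular element is rational -/
theorem big_of (h : TrB r) (hs : Spl r) {g₀ : GQ}
    (hg₀ : ¬ ‖(r g₀ : Matrix (Fin 2) (Fin 2) E).trace‖ < 1) (α : E)
    (hα : α ^ 2 - (r g₀ : Matrix (Fin 2) (Fin 2) E).trace * α +
      (r g₀ : Matrix (Fin 2) (Fin 2) E).det = 0) :
    ∃ P : GL (Fin 2) E, Big (cj P r) := by
  have h2 : ‖(2 : E)‖ < 1 := norm_two E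
  obtain ⟨β, hβ⟩ : ∃ β, β = (r g₀ : Matrix (Fin 2) (Fin 2) E).trace - α := ⟨_, rfl⟩
  have ht : (r g₀ : Matrix (Fin 2) (Fin 2) E).trace = α + β := by rw [hβ]; ring
  have hd : (r g₀ : Matrix (Fin 2) (Fin 2) E).det = α * β := by
    rw [hβ]; linear_combination hα
  have hα1 : ‖α‖ ≤ 1 := root_le (h.tr g₀) (h.dt g₀) hα
  have hβ1 : ‖β‖ ≤ 1 := by rw [hβ]; exact nle (h.tr g₀) hα1
  have hab : ‖α - β‖ = 1 := by
    have e : α - β = -(β * 2 - (r g₀ : Matrix (Fin 2) (Fin 2) E).trace) := by rw [ht]; ring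
    rw [e, norm_neg]
    exact neq (mlt hβ1 h2) (le_antisymm (h.tr g₀) (not_lt.1 hg₀))
  have hne : α ≠ β := by
    intro h3
    rw [h3, sub_self, norm_zero] at hab
    exact zero_ne_one hab
  obtain ⟨P, hP⟩ := diag (r g₀) α β hne ht hd
  obtain ⟨s, hsd⟩ : ∃ s, s = cj P r := ⟨_, rfl⟩
  have hP' : (s g₀ : Matrix (Fin 2) (Fin 2) E) = !![α, 0; 0, β] := by rw [hsd]; exact hP
  have hsT : TrB s := by rw [hsd]; exact h.cnj P
  have hde := dg_le hsT hα1 hβ1 hab hP'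
  have hmul : ∀ g g' i j, (s (g * g') : Matrix (Fin 2) (Fin 2) E) i j =
      (s g : Matrix (Fin 2) (Fin 2) E) i 0 * (s g' : Matrix (Fin 2) (Fin 2) E) 0 j +
      (s g : Matrix (Fin 2) (Fin 2) E) i 1 * (s g' : Matrix (Fin 2) (Fin 2) E) 1 j := by
    intro g g' i j
    rw [map_mul, Units.val_mul, Matrix.mul_apply, Fin.sum_univ_two]
  have hbc : ∀ g g', ‖(s g : Matrix (Fin 2) (Fin 2) E) 0 1 *
      (s g' : Matrix (Fin 2) (Fin 2) E) 1 0‖ ≤ 1 := fun g g' => by
    have h3 := nle (hde (g * g')).1 (mle (hde g).1 (hde g').1)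
    rwa [hmul, add_sub_cancel_left] at h3
  obtain ⟨g₁, g₂, h12⟩ : ∃ g₁ g₂, ¬ ‖(s g₁ : Matrix (Fin 2) (Fin 2) E) 0 1 *
      (s g₂ : Matrix (Fin 2) (Fin 2) E) 1 0‖ < 1 := by
    by_contra hn
    push Not at hn
    obtain ⟨g, hg, h3⟩ := hsT.ns 1
    have a1 := near_one (fun g => (s g : Matrix (Fin 2) (Fin 2) E) 0 0) (fun g => (hde g).1)
      (by simp) (fun g g' => by rw [hmul, add_sub_cancel_left]; exact hn g g') hg
    have a2 := near_one (fun g => (s g : Matrix (Fin 2) (Fin 2) E) 1 1) (fun g => (hde g).2)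
      (by simp) (fun g g' => by rw [hmul, add_sub_cancel_right, mul_comm]; exact hn g' g) hg
    refine h3 ?_
    have h4 := nlt (nlt a1 ((norm_neg _).trans_lt a2)) ((norm_neg _).trans_lt h2)
    rw [Matrix.trace_fin_two]
    refine lt_of_eq_of_lt (congrArg norm ?_) h4
    ring
  have e12 := le_antisymm (hbc g₁ g₂) (not_lt.1 h12)
  have hb0 : (s g₁ : Matrix (Fin 2) (Fin 2) E) 0 1 ≠ 0 := by
    intro h3
    rw [h3, zero_mul, norm_zero] at e12
    exact zero_ne_one e12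
  obtain ⟨D, hD⟩ := scale4 _ hb0
  refine ⟨P * D, ?_⟩
  rw [← cj_cj, ← hsd]
  have hD' : ∀ g, (cj D s g : Matrix (Fin 2) (Fin 2) E) = _ := fun g => hD (s g)
  refine ⟨fun g i j => ?_, ns_cj D hsT.ns, spl_cj D (by rw [hsd]; exact spl_cj P hs),
    ⟨g₀, ?_⟩, ⟨g₁, ?_⟩, ⟨g₂, ?_⟩⟩
  · rw [hD']
    fin_cases i <;> fin_cases j
    · exact (hde g).1
    · refine le_of_eq_of_le ?_ (hbc g g₂)
      change ‖((s g₁ : Matrix (Fin 2) (Fin 2) E) 0 1)⁻¹ * (s g : Matrix (Fin 2) (Fin 2) E) 0 1‖ = _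
      rw [← mul_one ‖((s g₁ : Matrix (Fin 2) (Fin 2) E) 0 1)⁻¹ * _‖, ← e12, ← norm_mul]
      congr 1
      field_simp
    · exact hbc g₁ g
    · exact (hde g).2
  · rw [hD', hP']
    simpa using hab
  · rw [hD']
    change ‖((s g₁ : Matrix (Fin 2) (Fin 2) E) 0 1)⁻¹ * (s g₁ : Matrix (Fin 2) (Fin 2) E) 0 1‖ = 1
    rw [inv_mul_cancel₀ hb0, norm_one]
  · rw [hD']
    exact e12

end

/-- the integral model over a finite extension -/
theorem model {E : Type} [NontriviallyNormedField E] [NormedAlgebra ℚ_[2] E]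
    [FiniteDimensional ℚ_[2] E] {r : GQ →* GL (Fin 2) E} (h : TrB r) :
    ∃ (E' : Type) (_ : NontriviallyNormedField E') (_ : NormedAlgebra ℚ_[2] E')
      (_ : IsUltrametricDist E') (_ : FiniteDimensional ℚ_[2] E') (_ : NormedAlgebra E E')
      (_ : IsScalarTower ℚ_[2] E E') (P : GL (Fin 2) E'), Big (cj P (bc E' r)) := by
  classical
  have hu : IsUltrametricDist E := IsUltrametricDist.of_normedAlgebra ℚ_[2]
  let f : GQ → ResidueField (Ob E) × ResidueField (Ob E) := fun g =>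
    (residue (Ob E) ⟨_, mem_Ob.2 (h.tr g)⟩, residue (Ob E) ⟨_, mem_Ob.2 (h.dt g)⟩)
  let s : ResidueField (Ob E) × ResidueField (Ob E) → GQ := Function.invFun f
  have hs : ∀ g, f (s (f g)) = f g := fun g => Function.invFun_eq ⟨g, rfl⟩
  have h1 : ∀ g, ‖(r (s (f g)) : Matrix (Fin 2) (Fin 2) E).trace -
      (r g : Matrix (Fin 2) (Fin 2) E).trace‖ < 1 := fun g => by
    have h3 : residue (Ob E) (⟨_, mem_Ob.2 (h.tr (s (f g)))⟩ - ⟨_, mem_Ob.2 (h.tr g)⟩) = 0 := by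
      rw [map_sub, sub_eq_zero]
      exact congrArg Prod.fst (hs g)
    exact res_Ob.1 h3
  have h2 : ∀ g, ‖(r (s (f g)) : Matrix (Fin 2) (Fin 2) E).det -
      (r g : Matrix (Fin 2) (Fin 2) E).det‖ < 1 := fun g => by
    have h3 : residue (Ob E) (⟨_, mem_Ob.2 (h.dt (s (f g)))⟩ - ⟨_, mem_Ob.2 (h.dt g)⟩) = 0 := by
      rw [map_sub, sub_eq_zero]
      exact congrArg Prod.snd (hs g)
    exact res_Ob.1 h3
  haveI := Fintype.ofFinite (ResidueField (Ob E) × ResidueField (Ob E))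
  obtain ⟨E', i1, i2, i3, i4, i5, i6, hp⟩ := ext_split E
    (∏ y, (r (s y) : Matrix (Fin 2) (Fin 2) E).charpoly)
  refine ⟨E', i1, i2, i3, i4, i5, i6, ?_⟩
  have hr : ∀ y, ∃ α : E', α ^ 2 - (bc E' r (s y) : Matrix (Fin 2) (Fin 2) E').trace * α +
      (bc E' r (s y) : Matrix (Fin 2) (Fin 2) E').det = 0 := fun y => by
    have hd : ((r (s y) : Matrix (Fin 2) (Fin 2) E).charpoly.map (algebraMap E E')).degree ≠ 0 := by
      rw [Polynomial.degree_map, Matrix.charpoly_degree_eq_dim]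
      simp
    obtain ⟨α, hα⟩ := (hp.of_dvd (Polynomial.map_ne_zero (Finset.prod_ne_zero_iff.2 fun y _ =>
      (Matrix.charpoly_monic _).ne_zero)) (Polynomial.map_dvd _
        (Finset.dvd_prod_of_mem _ (Finset.mem_univ y)))).exists_eval_eq_zero hd
    refine ⟨α, ?_⟩
    rw [Matrix.charpoly_fin_two] at hα
    rw [H20.bc_trace, H20.bc_det]
    simpa using hα
  have hT := h.ext E'
  obtain ⟨g, -, hg⟩ := h.ns 0
  obtain ⟨α, hα⟩ := hr (f g)
  refine big_of hT (fun x => ?_) (fun h3 => hg ?_) α hα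
  · obtain ⟨a, ha⟩ := hr (f x)
    have a1 := root_le (hT.tr _) (hT.dt _) ha
    refine ⟨a, a1, ?_⟩
    have h3 := nlt (mlt a1 (x := a) (y := algebraMap E E' _) (by
      rw [norm_algebraMap']; exact h1 x)) (y := algebraMap E E' _) (by
      rw [norm_algebraMap']; exact h2 x)
    refine lt_of_eq_of_lt (congrArg norm ?_) h3
    rw [H20.bc_trace, H20.bc_det] at ha ⊢
    rw [map_sub, map_sub]
    linear_combination ha
  · rw [H20.bc_trace, norm_algebraMap'] at h3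
    have h4 := nlt h3 (h1 g)
    rwa [sub_sub_cancel] at h4

end Vale.Agent.P022E.Dk
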