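import Vale.Agent.P022D.Dk.Grp

namespace Vale.Agent.P022E.Dk
export Vale.Agent.P022D.Dk (
  grp line_conj mulVec_ne)
end Vale.Agent.P022E.Dk
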